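import Vale.Agent.P232.Classify.Final
import Vale.Agent.P232.Classify.InvFlat
import Vale.Agent.P232.Classify.Lower
import Vale.Agent.P232.Classify.OtherAxis
import Vale.Agent.P232.Classify.RowFlat
import Vale.Agent.P232.Classify.SlabRigid
import Vale.Agent.P232.Classify.WindowRow

/-!
# P232: the isoperimetric profile of the cubic three-torus and all the minimisers
-/

namespace Vale.Agent.Results.P232.Minimisers

open Vale.Agent.P232

/-- At every volume the least perimeter is that of the best of ball, tube and slab, and up to null
sets these regions and their complements are the only sets which attain it. -/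
theorem result : ∀ V : ℝ, 0 < V → V < 1 → IsLeast (perimeters V) (J V) ∧
    ∀ E, IsTorusSet E → torusVolume E = V →
      (PerimeterLE E (J V) ↔ ∃ F, (F = E ∨ F = Eᶜ) ∧ torusVolume F = min V (1 - V) ∧
        IsCanonicalSet (min V (1 - V)) F) :=
  Classify.solution Classify.rowFlat Classify.invFlat Classify.otherAxis Classify.slabRigid
    Classify.lower Classify.windowRowStrict

end Vale.Agent.Results.P232.Minimisers
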